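import Mathlib

/-!
# Local smooth isometric realization for metrics depending on one coordinate

A smooth metric `E(x) dx² + 2 F(x) dx dy + G(x) dy²` whose coefficients depend on the coordinate
`x` only (a metric with a translation Killing field) is locally `C^∞`-realizable in Euclidean
three-space at every point where it is positive definite: a neighbourhood is realized as a piece
of a surface of revolution.  No assumption is made on the Gaussian curvature.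
-/

namespace Vale.Agent.Results.P229.KillingFieldMetric

open scoped ContDiff
open MeasureTheory

theorem primitive_smooth (h : ℝ → ℝ) (x₀ δ : ℝ) (hh : ContDiffOn ℝ ∞ h (Metric.ball x₀ δ)) :
    (∀ x ∈ Metric.ball x₀ δ, HasDerivAt (fun u => ∫ t in x₀..u, h t) (h x) x) ∧
      ContDiffOn ℝ ∞ (fun u => ∫ t in x₀..u, h t) (Metric.ball x₀ δ) := by
  have hc : ContinuousOn h (Metric.ball x₀ δ) := hh.continuousOn
  have hder : ∀ x ∈ Metric.ball x₀ δ, HasDerivAt (fun u => ∫ t in x₀..u, h t) (h x) x := by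
    intro x hx
    have hδ : 0 < δ := Metric.pos_of_mem_ball hx
    have hsub : Set.uIcc x₀ x ⊆ Metric.ball x₀ δ := by
      rw [Real.ball_eq_Ioo] at hx ⊢
      exact Set.ordConnected_Ioo.uIcc_subset ⟨by linarith, by linarith⟩ hx
    apply intervalIntegral.integral_hasDerivAt_right
    · exact (hc.mono hsub).intervalIntegrable
    · exact hc.stronglyMeasurableAtFilter Metric.isOpen_ball x hx
    · exact hc.continuousAt (Metric.isOpen_ball.mem_nhds hx)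
  refine ⟨hder, ?_⟩
  rw [contDiffOn_infty_iff_deriv_of_isOpen Metric.isOpen_ball]
  refine ⟨fun x hx => (hder x hx).differentiableAt.differentiableWithinAt, ?_⟩
  exact hh.congr (fun x hx => (hder x hx).deriv)

theorem fderiv_dir_fst (W : ℝ × ℝ → ℝ) (x y d : ℝ) (hW : DifferentiableAt ℝ W (x, y))
    (hd : HasDerivAt (fun t => W (t, y)) d x) : fderiv ℝ W (x, y) (1, 0) = d := by
  have hγ : HasDerivAt (fun t : ℝ => (t, y)) ((1 : ℝ), (0 : ℝ)) x :=
    (hasDerivAt_id x).prodMk (hasDerivAt_const x y)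
  have h := hW.hasFDerivAt.comp_hasDerivAt x hγ
  exact h.unique hd

theorem fderiv_dir_snd (W : ℝ × ℝ → ℝ) (x y d : ℝ) (hW : DifferentiableAt ℝ W (x, y))
    (hd : HasDerivAt (fun t => W (x, t)) d y) : fderiv ℝ W (x, y) (0, 1) = d := by
  have hγ : HasDerivAt (fun t : ℝ => (x, t)) ((0 : ℝ), (1 : ℝ)) y :=
    (hasDerivAt_const y x).prodMk (hasDerivAt_id y)
  have h := hW.hasFDerivAt.comp_hasDerivAt y hγ
  exact h.unique hd

/-- A smooth metric `E(x) dx² + 2 F(x) dx dy + G(x) dy²` with coefficients depending only on `x`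
(smooth on an open set `I` of values of `x`) is locally smoothly realizable in Euclidean
three-space at every point `(x₀, y₀)` with `x₀ ∈ I` at which it is positive definite:
there are an open neighbourhood `U` of `(x₀, y₀)` and a `C^∞` map `(X, Y, Z) : U → ℝ³` whose
first fundamental form is the given metric on `U`. -/
theorem result (E F G : ℝ → ℝ) (I : Set ℝ) (hI : IsOpen I)
    (hE : ContDiffOn ℝ ∞ E I) (hF : ContDiffOn ℝ ∞ F I) (hG : ContDiffOn ℝ ∞ G I)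
    (x₀ y₀ : ℝ) (hx₀ : x₀ ∈ I) (hE0 : 0 < E x₀) (hdet : 0 < E x₀ * G x₀ - F x₀ ^ 2) :
    ∃ U : Set (ℝ × ℝ), IsOpen U ∧ (x₀, y₀) ∈ U ∧ (∀ p ∈ U, p.1 ∈ I) ∧
      ∃ X Y Z : ℝ × ℝ → ℝ, ContDiffOn ℝ ∞ X U ∧ ContDiffOn ℝ ∞ Y U ∧ ContDiffOn ℝ ∞ Z U ∧
        ∀ p ∈ U,
          (fderiv ℝ X p (1, 0)) ^ 2 + (fderiv ℝ Y p (1, 0)) ^ 2 + (fderiv ℝ Z p (1, 0)) ^ 2
              = E p.1 ∧
          fderiv ℝ X p (1, 0) * fderiv ℝ X p (0, 1) + fderiv ℝ Y p (1, 0) * fderiv ℝ Y p (0, 1)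
              + fderiv ℝ Z p (1, 0) * fderiv ℝ Z p (0, 1) = F p.1 ∧
          (fderiv ℝ X p (0, 1)) ^ 2 + (fderiv ℝ Y p (0, 1)) ^ 2 + (fderiv ℝ Z p (0, 1)) ^ 2
              = G p.1 := by
  obtain ⟨G', hG'⟩ : ∃ G' : ℝ → ℝ, G' = deriv G := ⟨_, rfl⟩
  have hG'smooth : ContDiffOn ℝ ∞ G' I := by
    rw [hG']; exact hG.deriv_of_isOpen hI le_rfl
  have hG0 : 0 < G x₀ := by
    by_contra hneg
    rw [not_lt] at hneg
    nlinarith [sq_nonneg (F x₀), mul_nonpos_of_nonneg_of_nonpos hE0.le hneg]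
  obtain ⟨D, hD⟩ : ∃ D : ℝ, D = E x₀ * G x₀ - F x₀ ^ 2 := ⟨_, rfl⟩
  have hDpos : 0 < D := by rw [hD]; exact hdet
  have hden : 0 < G' x₀ ^ 2 + 1 := by positivity
  obtain ⟨c, hc⟩ : ∃ c : ℝ, c = Real.sqrt (D / (G' x₀ ^ 2 + 1)) := ⟨_, rfl⟩
  have hcpos : 0 < c := by rw [hc]; exact Real.sqrt_pos.mpr (div_pos hDpos hden)
  have hcsq : c ^ 2 = D / (G' x₀ ^ 2 + 1) := by
    rw [hc]; exact Real.sq_sqrt (div_pos hDpos hden).le
  have hcG : c ^ 2 * G' x₀ ^ 2 < D := by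
    rw [hcsq, div_mul_eq_mul_div, div_lt_iff₀ hden]
    nlinarith
  obtain ⟨Q, hQ⟩ : ∃ Q : ℝ → ℝ, Q = fun t => 4 * (E t * G t - F t ^ 2) - c ^ 2 * G' t ^ 2 :=
    ⟨_, rfl⟩
  have hQsmooth : ContDiffOn ℝ ∞ Q I := by
    rw [hQ]
    exact (contDiffOn_const.mul ((hE.mul hG).sub (hF.pow 2))).sub
      (contDiffOn_const.mul (hG'smooth.pow 2))
  have hQ0 : 0 < Q x₀ := by
    rw [hQ]
    show 0 < 4 * (E x₀ * G x₀ - F x₀ ^ 2) - c ^ 2 * G' x₀ ^ 2
    rw [← hD]; linarith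
  have hV1 : IsOpen (I ∩ G ⁻¹' Set.Ioi 0) := hG.continuousOn.isOpen_inter_preimage hI isOpen_Ioi
  have hV : IsOpen ((I ∩ G ⁻¹' Set.Ioi 0) ∩ Q ⁻¹' Set.Ioi 0) :=
    (hQsmooth.continuousOn.mono Set.inter_subset_left).isOpen_inter_preimage hV1 isOpen_Ioi
  obtain ⟨δ, hδ, hball⟩ := Metric.isOpen_iff.mp hV x₀ ⟨⟨hx₀, hG0⟩, hQ0⟩
  have hJI : Metric.ball x₀ δ ⊆ I := fun t ht => (hball ht).1.1
  have hGpos : ∀ t ∈ Metric.ball x₀ δ, 0 < G t := fun t ht => (hball ht).1.2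
  have hQpos : ∀ t ∈ Metric.ball x₀ δ, 0 < Q t := fun t ht => (hball ht).2
  -- the integrands
  have hα_smooth : ContDiffOn ℝ ∞ (fun t => F t / (c * G t)) (Metric.ball x₀ δ) :=
    (hF.mono hJI).div (contDiffOn_const.mul (hG.mono hJI))
      (fun t ht => (mul_pos hcpos (hGpos t ht)).ne')
  have hz_smooth : ContDiffOn ℝ ∞ (fun t => Real.sqrt (Q t / (4 * G t))) (Metric.ball x₀ δ) :=
    ((hQsmooth.mono hJI).div (contDiffOn_const.mul (hG.mono hJI))
      (fun t ht => (mul_pos (by norm_num) (hGpos t ht)).ne')).sqrt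
      (fun t ht => (div_pos (hQpos t ht) (mul_pos (by norm_num) (hGpos t ht))).ne')
  obtain ⟨hαder, hαsm⟩ := primitive_smooth _ x₀ δ hα_smooth
  obtain ⟨hzder, hzsm⟩ := primitive_smooth _ x₀ δ hz_smooth
  obtain ⟨α, hα⟩ : ∃ α : ℝ → ℝ, α = fun u => ∫ t in x₀..u, F t / (c * G t) := ⟨_, rfl⟩
  obtain ⟨z, hz⟩ : ∃ z : ℝ → ℝ, z = fun u => ∫ t in x₀..u, Real.sqrt (Q t / (4 * G t)) :=
    ⟨_, rfl⟩
  rw [← hα] at hαder hαsm
  rw [← hz] at hzder hzsm
  obtain ⟨r, hr⟩ : ∃ r : ℝ → ℝ, r = fun t => c * Real.sqrt (G t) := ⟨_, rfl⟩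
  have hr_smooth : ContDiffOn ℝ ∞ r (Metric.ball x₀ δ) := by
    rw [hr]
    exact contDiffOn_const.mul ((hG.mono hJI).sqrt (fun t ht => (hGpos t ht).ne'))
  have hrder : ∀ t ∈ Metric.ball x₀ δ,
      HasDerivAt r (c * (G' t / (2 * Real.sqrt (G t)))) t := by
    intro t ht
    have hGd : HasDerivAt G (G' t) t := by
      rw [hG']
      exact ((hG.differentiableOn (by simp)).differentiableAt (hI.mem_nhds (hJI ht))).hasDerivAt
    rw [hr]
    exact (hGd.sqrt (hGpos t ht).ne').const_mul c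
  -- the neighbourhood and the map
  refine ⟨Prod.fst ⁻¹' Metric.ball x₀ δ, Metric.isOpen_ball.preimage continuous_fst,
    Metric.mem_ball_self hδ, fun p hp => hJI hp,
    fun p => r p.1 * Real.cos (p.2 / c + α p.1),
    fun p => r p.1 * Real.sin (p.2 / c + α p.1), fun p => z p.1, ?_, ?_, ?_, ?_⟩
  all_goals
    have hUopen : IsOpen (Prod.fst ⁻¹' Metric.ball x₀ δ : Set (ℝ × ℝ)) :=
      Metric.isOpen_ball.preimage continuous_fst
    have hfst : ContDiffOn ℝ ∞ (fun p : ℝ × ℝ => p.1) (Prod.fst ⁻¹' Metric.ball x₀ δ) :=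
      contDiff_fst.contDiffOn
    have hmaps : Set.MapsTo (fun p : ℝ × ℝ => p.1) (Prod.fst ⁻¹' Metric.ball x₀ δ)
        (Metric.ball x₀ δ) := fun p hp => hp
    have hrU : ContDiffOn ℝ ∞ (fun p : ℝ × ℝ => r p.1) (Prod.fst ⁻¹' Metric.ball x₀ δ) :=
      hr_smooth.comp hfst hmaps
    have hαU : ContDiffOn ℝ ∞ (fun p : ℝ × ℝ => α p.1) (Prod.fst ⁻¹' Metric.ball x₀ δ) :=
      hαsm.comp hfst hmaps
    have hzU : ContDiffOn ℝ ∞ (fun p : ℝ × ℝ => z p.1) (Prod.fst ⁻¹' Metric.ball x₀ δ) :=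
      hzsm.comp hfst hmaps
    have hθU : ContDiffOn ℝ ∞ (fun p : ℝ × ℝ => p.2 / c + α p.1)
        (Prod.fst ⁻¹' Metric.ball x₀ δ) :=
      (contDiff_snd.contDiffOn.div_const c).add hαU
    have hXs : ContDiffOn ℝ ∞ (fun p : ℝ × ℝ => r p.1 * Real.cos (p.2 / c + α p.1))
        (Prod.fst ⁻¹' Metric.ball x₀ δ) :=
      hrU.mul (Real.contDiff_cos.comp_contDiffOn hθU)
    have hYs : ContDiffOn ℝ ∞ (fun p : ℝ × ℝ => r p.1 * Real.sin (p.2 / c + α p.1))
        (Prod.fst ⁻¹' Metric.ball x₀ δ) :=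
      hrU.mul (Real.contDiff_sin.comp_contDiffOn hθU)
  · exact hXs
  · exact hYs
  · exact hzU
  · rintro ⟨x, y⟩ hp
    have hx : x ∈ Metric.ball x₀ δ := hp
    have hdiff : ∀ W : ℝ × ℝ → ℝ, ContDiffOn ℝ ∞ W (Prod.fst ⁻¹' Metric.ball x₀ δ) →
        DifferentiableAt ℝ W (x, y) := fun W hW =>
      (hW.differentiableOn (by simp)).differentiableAt (hUopen.mem_nhds hp)
    -- partial derivatives in x
    have hθx : HasDerivAt (fun t => y / c + α t) (F x / (c * G x)) x :=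
      (hαder x hx).const_add (y / c)
    have hXx := fderiv_dir_fst _ x y _ (hdiff _ hXs) ((hrder x hx).mul hθx.cos)
    have hYx := fderiv_dir_fst _ x y _ (hdiff _ hYs) ((hrder x hx).mul hθx.sin)
    have hZx := fderiv_dir_fst (fun p : ℝ × ℝ => z p.1) x y _ (hdiff _ hzU) (hzder x hx)
    -- partial derivatives in y
    have hθy : HasDerivAt (fun t => t / c + α x) (1 / c) y :=
      ((hasDerivAt_id y).div_const c).add_const (α x)
    have hXy := fderiv_dir_snd _ x y _ (hdiff _ hXs) (hθy.cos.const_mul (r x))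
    have hYy := fderiv_dir_snd _ x y _ (hdiff _ hYs) (hθy.sin.const_mul (r x))
    have hZy := fderiv_dir_snd (fun p : ℝ × ℝ => z p.1) x y _ (hdiff _ hzU)
      (hasDerivAt_const y (z x))
    rw [hXx, hYx, hZx, hXy, hYy, hZy]
    -- algebra
    have hGx : 0 < G x := hGpos x hx
    have hQx : 0 < Q x := hQpos x hx
    obtain ⟨sg, hsg⟩ : ∃ sg : ℝ, sg = Real.sqrt (G x) := ⟨_, rfl⟩
    have hsgpos : 0 < sg := by rw [hsg]; exact Real.sqrt_pos.mpr hGx
    have hsgsq : sg ^ 2 = G x := by rw [hsg]; exact Real.sq_sqrt hGx.le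
    have hrx : r x = c * sg := by rw [hr, hsg]
    have hzsq : Real.sqrt (Q x / (4 * G x)) ^ 2 = Q x / (4 * G x) :=
      Real.sq_sqrt (div_pos hQx (mul_pos (by norm_num) hGx)).le
    have hQx' : Q x = 4 * (E x * G x - F x ^ 2) - c ^ 2 * G' x ^ 2 := by rw [hQ]
    obtain ⟨S, hS⟩ : ∃ S : ℝ, S = Real.sin (y / c + α x) := ⟨_, rfl⟩
    obtain ⟨C, hC⟩ : ∃ C : ℝ, C = Real.cos (y / c + α x) := ⟨_, rfl⟩
    have hSC : S ^ 2 + C ^ 2 = 1 := by rw [hS, hC]; exact Real.sin_sq_add_cos_sq _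
    obtain ⟨zp, hzp⟩ : ∃ zp : ℝ, zp = Real.sqrt (Q x / (4 * G x)) := ⟨_, rfl⟩
    rw [← hzp] at hzsq
    simp only [← hsg, ← hS, ← hC, ← hzp, hrx]
    have hcne : c ≠ 0 := hcpos.ne'
    have hsgne : sg ≠ 0 := hsgpos.ne'
    refine ⟨?_, ?_, ?_⟩
    · have e1 : (c * (G' x / (2 * sg)) * C + c * sg * (-S * (F x / (c * G x)))) ^ 2
          + (c * (G' x / (2 * sg)) * S + c * sg * (C * (F x / (c * G x)))) ^ 2
          = ((c * (G' x / (2 * sg))) ^ 2 + (c * sg) ^ 2 * (F x / (c * G x)) ^ 2)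
            * (S ^ 2 + C ^ 2) := by ring
      rw [e1, hSC, mul_one, hzsq, hQx', ← hsgsq]
      field_simp
      ring
    · have e2 : (c * (G' x / (2 * sg)) * C + c * sg * (-S * (F x / (c * G x))))
            * (c * sg * (-S * (1 / c)))
          + (c * (G' x / (2 * sg)) * S + c * sg * (C * (F x / (c * G x))))
            * (c * sg * (C * (1 / c))) + zp * 0
          = (c * sg) ^ 2 * (F x / (c * G x)) * (1 / c) * (S ^ 2 + C ^ 2) := by ring
      rw [e2, hSC, mul_one, ← hsgsq]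
      field_simp
    · have e3 : (c * sg * (-S * (1 / c))) ^ 2 + (c * sg * (C * (1 / c))) ^ 2 + (0 : ℝ) ^ 2
          = (c * sg) ^ 2 * (1 / c) ^ 2 * (S ^ 2 + C ^ 2) := by ring
      rw [e3, hSC, mul_one, ← hsgsq]
      field_simp

end Vale.Agent.Results.P229.KillingFieldMetric
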