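import Mathlib
import Vale.Agent.Results.P229.KillingFieldMetric
import Vale.Agent.Helper26.P229Spiral

/-!
# Local smooth isometric realization for metrics with a homothetic field

A smooth metric `exp (2 l y) (E(x) dx² + 2 F(x) dx dy + G(x) dy²)` (for which the translation
field in `y` is homothetic; for `l = 0` it is a Killing field) is locally `C^∞`-realizable in
Euclidean three-space at every point where it is positive definite: a neighbourhood is realized
as a piece of a spiral surface, the profile of which solves a smooth scalar differential equation.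
No assumption is made on the Gaussian curvature.
-/

namespace Vale.Agent.Results.P229.SpiralMetric

open scoped ContDiff

/-- For every real `l`, a smooth metric `exp (2 l y) (E(x) dx² + 2 F(x) dx dy + G(x) dy²)`
(coefficients `E, F, G` smooth on an open set `I` of values of `x`) is locally smoothly
realizable in Euclidean three-space at every point `(x₀, y₀)` with `x₀ ∈ I` at which it is
positive definite: there are an open neighbourhood `U` of `(x₀, y₀)` and a `C^∞` map
`(X, Y, Z) : U → ℝ³` whose first fundamental form is the given metric on `U`. -/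
theorem result (l : ℝ) (E F G : ℝ → ℝ) (I : Set ℝ) (hI : IsOpen I)
    (hE : ContDiffOn ℝ ∞ E I) (hF : ContDiffOn ℝ ∞ F I) (hG : ContDiffOn ℝ ∞ G I)
    (x₀ y₀ : ℝ) (hx₀ : x₀ ∈ I) (hE0 : 0 < E x₀) (hdet : 0 < E x₀ * G x₀ - F x₀ ^ 2) :
    ∃ U : Set (ℝ × ℝ), IsOpen U ∧ (x₀, y₀) ∈ U ∧ (∀ p ∈ U, p.1 ∈ I) ∧
      ∃ X Y Z : ℝ × ℝ → ℝ, ContDiffOn ℝ ∞ X U ∧ ContDiffOn ℝ ∞ Y U ∧ ContDiffOn ℝ ∞ Z U ∧
        ∀ p ∈ U,
          (fderiv ℝ X p (1, 0)) ^ 2 + (fderiv ℝ Y p (1, 0)) ^ 2 + (fderiv ℝ Z p (1, 0)) ^ 2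
              = Real.exp (2 * l * p.2) * E p.1 ∧
          fderiv ℝ X p (1, 0) * fderiv ℝ X p (0, 1) + fderiv ℝ Y p (1, 0) * fderiv ℝ Y p (0, 1)
              + fderiv ℝ Z p (1, 0) * fderiv ℝ Z p (0, 1) = Real.exp (2 * l * p.2) * F p.1 ∧
          (fderiv ℝ X p (0, 1)) ^ 2 + (fderiv ℝ Y p (0, 1)) ^ 2 + (fderiv ℝ Z p (0, 1)) ^ 2
              = Real.exp (2 * l * p.2) * G p.1 := by
  by_cases hl : l = 0
  · subst hl
    obtain ⟨U, hU, hmem, hsub, X, Y, Z, hX, hY, hZ, h⟩ :=
      Vale.Agent.Results.P229.KillingFieldMetric.result E F G I hI hE hF hG x₀ y₀ hx₀ hE0 hdet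
    refine ⟨U, hU, hmem, hsub, X, Y, Z, hX, hY, hZ, fun p hp => ?_⟩
    have h' := h p hp
    simp only [mul_zero, zero_mul, Real.exp_zero, one_mul]
    exact h'
  · exact Vale.Agent.Helper26.P229Spiral.result_ne l hl E F G I hI hE hF hG x₀ y₀ hx₀ hE0 hdet

end Vale.Agent.Results.P229.SpiralMetric
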