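import Mathlib
import Vale.Agent.Results.P229.KillingFieldMetric

/-!
# Local smooth isometric realization of metrics invariant under translations in one coordinate

A smooth positive definite metric `g11 dx² + 2 g12 dx dy + g22 dy²` on an open set `Ω` of the
plane whose coefficients take equal values at any two points of `Ω` with the same `x`-coordinate
is locally `C^∞`-realizable in Euclidean three-space at every point of `Ω`.  This is the theorem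
of `Vale.Agent.Results.P229.KillingFieldMetric`, stated directly for a metric on an open subset
of the plane.
-/

namespace Vale.Agent.Results.P229.TranslationInvariantMetric

open scoped ContDiff

/-- Let `g = g11 dx² + 2 g12 dx dy + g22 dy²` be a `C^∞` positive definite metric on an open set
`Ω ⊆ ℝ²` whose coefficients depend on `x` only, in the sense that they agree at any two points of
`Ω` with the same first coordinate.  Then `g` is locally `C^∞`-realizable at every point `p₀` of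
`Ω`: there are an open neighbourhood `U ⊆ Ω` of `p₀` and a `C^∞` map `(X, Y, Z) : U → ℝ³` with
`⟨∂_i (X, Y, Z), ∂_j (X, Y, Z)⟩ = g_ij` on `U`. -/
theorem result (Ω : Set (ℝ × ℝ)) (hΩ : IsOpen Ω) (g11 g12 g22 : ℝ × ℝ → ℝ)
    (h11 : ContDiffOn ℝ ∞ g11 Ω) (h12 : ContDiffOn ℝ ∞ g12 Ω) (h22 : ContDiffOn ℝ ∞ g22 Ω)
    (hpos : ∀ p ∈ Ω, 0 < g11 p ∧ 0 < g11 p * g22 p - g12 p ^ 2)
    (hinv : ∀ p ∈ Ω, ∀ q ∈ Ω, p.1 = q.1 → g11 p = g11 q ∧ g12 p = g12 q ∧ g22 p = g22 q) :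
    ∀ p₀ ∈ Ω, ∃ U : Set (ℝ × ℝ), IsOpen U ∧ p₀ ∈ U ∧ U ⊆ Ω ∧
      ∃ X Y Z : ℝ × ℝ → ℝ, ContDiffOn ℝ ∞ X U ∧ ContDiffOn ℝ ∞ Y U ∧ ContDiffOn ℝ ∞ Z U ∧
        ∀ p ∈ U,
          (fderiv ℝ X p (1, 0)) ^ 2 + (fderiv ℝ Y p (1, 0)) ^ 2 + (fderiv ℝ Z p (1, 0)) ^ 2
              = g11 p ∧
          fderiv ℝ X p (1, 0) * fderiv ℝ X p (0, 1) + fderiv ℝ Y p (1, 0) * fderiv ℝ Y p (0, 1)
              + fderiv ℝ Z p (1, 0) * fderiv ℝ Z p (0, 1) = g12 p ∧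
          (fderiv ℝ X p (0, 1)) ^ 2 + (fderiv ℝ Y p (0, 1)) ^ 2 + (fderiv ℝ Z p (0, 1)) ^ 2
              = g22 p := by
  rintro ⟨x₀, y₀⟩ hp₀
  have hι : ContDiff ℝ ∞ (fun x : ℝ => ((x, y₀) : ℝ × ℝ)) := contDiff_id.prodMk contDiff_const
  obtain ⟨I, hIdef⟩ : ∃ I : Set ℝ, I = (fun x : ℝ => ((x, y₀) : ℝ × ℝ)) ⁻¹' Ω := ⟨_, rfl⟩
  have hI : IsOpen I := by
    rw [hIdef]
    exact hΩ.preimage hι.continuous
  have hmaps : Set.MapsTo (fun x : ℝ => ((x, y₀) : ℝ × ℝ)) I Ω := by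
    intro x hx
    rw [hIdef] at hx
    exact hx
  have hx₀ : x₀ ∈ I := by
    rw [hIdef]
    exact hp₀
  have hE : ContDiffOn ℝ ∞ (fun x : ℝ => g11 (x, y₀)) I := h11.comp hι.contDiffOn hmaps
  have hF : ContDiffOn ℝ ∞ (fun x : ℝ => g12 (x, y₀)) I := h12.comp hι.contDiffOn hmaps
  have hG : ContDiffOn ℝ ∞ (fun x : ℝ => g22 (x, y₀)) I := h22.comp hι.contDiffOn hmaps
  obtain ⟨U', hU'open, hmem, hsub, X, Y, Z, hX, hY, hZ, heq⟩ :=
    KillingFieldMetric.result (fun x : ℝ => g11 (x, y₀)) (fun x : ℝ => g12 (x, y₀))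
      (fun x : ℝ => g22 (x, y₀)) I hI hE hF hG x₀ y₀ hx₀ (hpos _ hp₀).1 (hpos _ hp₀).2
  refine ⟨U' ∩ Ω, hU'open.inter hΩ, ⟨hmem, hp₀⟩, Set.inter_subset_right, X, Y, Z,
    hX.mono Set.inter_subset_left, hY.mono Set.inter_subset_left, hZ.mono Set.inter_subset_left,
    ?_⟩
  intro p hp
  obtain ⟨hpU, hpΩ⟩ := hp
  have hq : ((p.1, y₀) : ℝ × ℝ) ∈ Ω := hmaps (hsub p hpU)
  obtain ⟨e1, e2, e3⟩ := hinv (p.1, y₀) hq p hpΩ rfl
  obtain ⟨k1, k2, k3⟩ := heq p hpU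
  exact ⟨k1.trans e1, k2.trans e2, k3.trans e3⟩

end Vale.Agent.Results.P229.TranslationInvariantMetric
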